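import Vale.Agent.P219.LFinal
import Vale.Agent.P219.Spec

/-!
The generalized Cartan-Hadamard isoperimetric inequality with its equality case, in every
dimension.
-/

open scoped Bundle

namespace Vale.Agent.Results.P219.AllDim

open Vale.Agent.P219

universe u

theorem result (n : ℕ) (hn : 2 ≤ n) (κ : ℝ) (hκ : κ ≤ 0) :
    Spec.Holds.{u} (fun i : Fin n => EuclideanSpace.single i (1 : ℝ)) κ := by
  obtain ⟨k, rfl⟩ : ∃ k, n = k + 1 := ⟨n - 1, by omega⟩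
  intro M _ _ _ _ _ _ _ _ _ _ hsec Ω hΩ
  obtain ⟨h1, h2, h3⟩ := lmain (k := k) (by omega) hκ (M := M) hsec (Ω := Ω) hΩ
  refine ⟨h1, h2, fun h4 h5 => ?_⟩
  obtain ⟨ρ, Φ, h6, h7, h8, h9, h10⟩ := h3 h4 h5
  refine ⟨ρ, Φ, h6, h7, h8, h9, fun x hx v => ?_⟩
  rw [← div_pow]
  exact (real_inner_self_eq_norm_sq v).trans (congrArg (· ^ 2) (h10 x hx v))

end Vale.Agent.Results.P219.AllDim
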